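import Vale.Agent.P255.FinalDefs
import Vale.Agent.P255.Bdl.B2

open scoped Manifold ContDiff

namespace Vale.Agent.Results.P255.AllDimensions

open Vale.Agent.P255

/-- In every dimension `n ≥ 3` there is a closed connected smooth manifold which carries a smooth
Riemannian metric without conjugate points, but no smooth Riemannian metric of nonpositive
sectional curvature. -/
theorem result : ∀ n : ℕ, 3 ≤ n →
    ∃ (E : Type) (_ : NormedAddCommGroup E) (_ : NormedSpace ℝ E)
      (M : Type) (_ : TopologicalSpace M) (_ : ChartedSpace E M) (_ : IsManifold 𝓘(ℝ, E) ∞ M),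
      Module.finrank ℝ E = n ∧
      CompactSpace M ∧ T2Space M ∧ SecondCountableTopology M ∧ ConnectedSpace M ∧
      (∃ g : RMetric E M, NoConjugatePoints g) ∧ ¬ ∃ g : RMetric E M, NonposCurvature g :=
  main_all

end Vale.Agent.Results.P255.AllDimensions
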